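import Vale.Agent.P067.Alld.Bld.Defs

/-!
P067, module II-b: lattices in `ℤ →₀ F_p`: closure under shifts and intersections, and the index.
-/

set_option linter.unusedSectionVars false

namespace Vale.Agent.P067.Alld.Building

open Finset Module Bld

variable {p : ℕ} [Fact p.Prime] {n : ℕ}

theorem sh_injective (c : ℤ) : Function.Injective (sh p c) :=
  Finsupp.mapDomain_injective (add_left_injective c)

theorem sh_comp (c d : ℤ) : (sh p d).comp (sh p c) = sh p (c + d) := by
  unfold sh
  rw [← Finsupp.lmapDomain_comp]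
  congr 1
  funext k
  simp [add_assoc]

theorem map_sh_sh (W : Submodule (ZMod p) (LV p)) (c d : ℤ) :
    (W.map (sh p c)).map (sh p d) = W.map (sh p (c + d)) := by
  rw [← Submodule.map_comp, sh_comp]

theorem map_sh_zero (W : Submodule (ZMod p) (LV p)) : W.map (sh p 0) = W := by
  have h : sh p 0 = LinearMap.id := by
    unfold sh
    rw [show (fun k : ℤ => k + 0) = id from funext add_zero, Finsupp.lmapDomain_id]
  rw [h, Submodule.map_id]

theorem map_sh_le_iff {W W' : Submodule (ZMod p) (LV p)} (c : ℤ) :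
    W.map (sh p c) ≤ W'.map (sh p c) ↔ W ≤ W' :=
  Submodule.map_le_map_iff_of_injective (sh_injective c) _ _

theorem map_lo (a c : ℤ) : (lo p a).map (sh p c) = lo p (a + c) := by
  rw [lo, lo, sh, Finsupp.lmapDomain_supported]
  congr 1
  ext k
  simp only [Set.mem_image, Set.mem_ofPred_eq]
  exact ⟨fun ⟨x, hx, e⟩ => by omega, fun h => ⟨k - c, by omega, by omega⟩⟩

theorem map_hi (a c : ℤ) : (hi p a).map (sh p c) = hi p (a + c) := by
  rw [hi, hi, sh, Finsupp.lmapDomain_supported]
  congr 1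
  ext k
  simp only [Set.mem_image, Set.mem_ofPred_eq]
  exact ⟨fun ⟨x, hx, e⟩ => by omega, fun h => ⟨k - c, by omega, by omega⟩⟩

theorem lo_mono {a b : ℤ} (h : a ≤ b) : lo p a ≤ lo p b :=
  Finsupp.supported_mono fun _ (hk : _ ≤ a) => hk.trans h

theorem lo_sup_hi (a : ℤ) : lo p a ⊔ hi p a = ⊤ := by
  rw [lo, hi, ← Finsupp.supported_union, ← Finsupp.supported_univ]
  congr 1
  ext k
  simp only [Set.mem_union, Set.mem_ofPred_eq, Set.mem_univ, iff_true]
  omega

/-- `t⁻¹ W ≤ W` gives `W ≤ t W`. -/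
theorem le_map_sh {W : Submodule (ZMod p) (LV p)} (h : IsLat p n W) :
    W ≤ W.map (sh p n) := by
  have h1 := Submodule.map_mono (f := sh p n) h.1
  rwa [map_sh_sh, neg_add_cancel, map_sh_zero] at h1

theorem isLat_map {W : Submodule (ZMod p) (LV p)} (h : IsLat p n W) (c : ℤ) :
    IsLat p n (W.map (sh p c)) := by
  obtain ⟨h1, a, b, ha, hb⟩ := h
  refine ⟨?_, a + c, b + c, (map_lo a c).symm.le.trans (Submodule.map_mono ha),
    (Submodule.map_mono hb).trans (map_lo b c).le⟩
  rw [map_sh_sh, add_comm, ← map_sh_sh]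
  exact Submodule.map_mono h1

theorem isLat_inf {W W' : Submodule (ZMod p) (LV p)} (h : IsLat p n W) (h' : IsLat p n W') :
    IsLat p n (W ⊓ W') := by
  obtain ⟨h1, a, b, ha, hb⟩ := h
  obtain ⟨h1', a', b', ha', hb'⟩ := h'
  exact ⟨le_inf ((Submodule.map_mono inf_le_left).trans h1)
      ((Submodule.map_mono inf_le_right).trans h1'),
    min a a', b, le_inf ((lo_mono (min_le_left _ _)).trans ha)
      ((lo_mono (min_le_right _ _)).trans ha'), inf_le_left.trans hb⟩

theorem isLat_lo (b : ℤ) : IsLat p n (lo p b) :=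
  ⟨(map_lo b _).le.trans (lo_mono (by omega)), b, b, le_rfl, le_rfl⟩

/-- A larger lattice that meets `t a` inside `a` is `a` itself. -/
theorem le_of_inf_map_le (hn : 0 < n) {a v : Submodule (ZMod p) (LV p)} (ha : IsLat p n a)
    (hv : IsLat p n v) (h : v ⊓ a.map (sh p n) ≤ a) : v ≤ a := by
  have key : ∀ k : ℕ, v ⊓ a.map (sh p ((n : ℤ) * k)) ≤ a := by
    intro k
    induction k with
    | zero => simp [map_sh_zero]
    | succ k ih =>
      have h1 : (v ⊓ a.map (sh p ((n : ℤ) * (k + 1 : ℕ)))).map (sh p (-(n : ℤ))) ≤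
          v ⊓ a.map (sh p ((n : ℤ) * k)) := by
        refine le_inf ((Submodule.map_mono inf_le_left).trans hv.1)
          ((Submodule.map_mono inf_le_right).trans ?_)
        rw [map_sh_sh]
        refine le_of_eq ?_
        congr 2
        push_cast
        ring
      have h2 := Submodule.map_mono (f := sh p n) (h1.trans ih)
      rw [map_sh_sh, neg_add_cancel, map_sh_zero] at h2
      exact (le_inf inf_le_left h2).trans h
  obtain ⟨A, -, hA, -⟩ := ha.2
  obtain ⟨-, B, -, hB⟩ := hv.2
  refine le_trans (le_inf le_rfl ?_) (key (B - A).toNat)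
  refine hB.trans (le_trans (lo_mono ?_) ((map_lo A _).symm.le.trans (Submodule.map_mono hA)))
  have h3 : (1 : ℤ) * (B - A).toNat ≤ (n : ℤ) * (B - A).toNat :=
    mul_le_mul_of_nonneg_right (by omega) (Int.natCast_nonneg _)
  omega

theorem finrank_supported (s : Finset ℤ) :
    FiniteDimensional (ZMod p) (Finsupp.supported (ZMod p) (ZMod p) (s : Set ℤ)) ∧
      finrank (ZMod p) (Finsupp.supported (ZMod p) (ZMod p) (s : Set ℤ)) = s.card := by
  have e := Finsupp.supportedEquivFinsupp (R := ZMod p) (M := ZMod p) (s : Set ℤ)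
  exact ⟨Module.Finite.equiv e.symm, by
    rw [e.finrank_eq, Module.finrank_finsupp_self]; simp⟩

theorem finite_inf_hi {W : Submodule (ZMod p) (LV p)} (h : IsLat p n W) (a : ℤ) :
    FiniteDimensional (ZMod p) (W ⊓ hi p a : Submodule (ZMod p) (LV p)) := by
  obtain ⟨-, -, b, -, hb⟩ := h
  have := (finrank_supported (p := p) (Finset.Ioc a b)).1
  refine Submodule.finiteDimensional_of_le
    (S₂ := Finsupp.supported (ZMod p) (ZMod p) (Finset.Ioc a b : Set ℤ)) ?_
  refine (inf_le_inf_right _ hb).trans ?_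
  rw [lo, hi, ← Finsupp.supported_inter]
  refine Finsupp.supported_mono fun k hk => ?_
  simp only [Set.mem_inter_iff, Set.mem_ofPred_eq] at hk
  simp [hk.1, hk.2]

theorem finrank_step {W : Submodule (ZMod p) (LV p)} (h : IsLat p n W) {a : ℤ}
    (ha : lo p a ≤ W) :
    finrank (ZMod p) (W ⊓ hi p (a - 1) : Submodule (ZMod p) (LV p)) =
      finrank (ZMod p) (W ⊓ hi p a : Submodule (ZMod p) (LV p)) + 1 := by
  set X := Finsupp.supported (ZMod p) (ZMod p) (({a} : Finset ℤ) : Set ℤ) with hX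
  have := (finrank_supported (p := p) ({a} : Finset ℤ)).1
  have := finite_inf_hi h a
  have hXW : X ≤ W := (Finsupp.supported_mono (by simp)).trans ha
  have hsup : hi p (a - 1) = X ⊔ hi p a := by
    rw [hX, hi, hi, ← Finsupp.supported_union]
    congr 1
    ext k
    simp
    omega
  have hcap : X ⊓ (W ⊓ hi p a) = ⊥ := by
    refine le_bot_iff.1 ((inf_le_inf_left _ inf_le_right).trans ?_)
    rw [hX, hi, ← Finsupp.supported_inter, ← Finsupp.supported_empty (R := ZMod p) (M := ZMod p)]
    refine Finsupp.supported_mono fun k hk => ?_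
    simp at hk
  have h1 := Submodule.finrank_sup_add_finrank_inf_eq X (W ⊓ hi p a)
  rw [hcap, finrank_bot, add_zero, (finrank_supported (p := p) ({a} : Finset ℤ)).2,
    Finset.card_singleton, inf_comm W (hi p a), ← sup_inf_assoc_of_le (hi p a) hXW, ← hsup,
    inf_comm (hi p (a - 1)), inf_comm (hi p a)] at h1
  exact h1.trans (Nat.add_comm _ _)

theorem finrank_sub {W : Submodule (ZMod p) (LV p)} (h : IsLat p n W) {a : ℤ} (ha : lo p a ≤ W) :
    ∀ k : ℕ, finrank (ZMod p) (W ⊓ hi p (a - k) : Submodule (ZMod p) (LV p)) =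
      finrank (ZMod p) (W ⊓ hi p a : Submodule (ZMod p) (LV p)) + k := by
  intro k
  induction k with
  | zero => rw [Nat.cast_zero, sub_zero, add_zero]
  | succ k ih =>
    have h1 := finrank_step h (a := a - k) ((lo_mono (by omega)).trans ha)
    rw [show a - ((k + 1 : ℕ) : ℤ) = a - k - 1 by push_cast; ring, h1, ih]
    omega

theorem hasIdx_unique {W : Submodule (ZMod p) (LV p)} (h : IsLat p n W) {i j : ℤ}
    (hi' : HasIdx p W i) (hj : HasIdx p W j) : i = j := by
  suffices key : ∀ {a a' : ℤ}, lo p a ≤ W → a' ≤ a →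
      (finrank (ZMod p) (W ⊓ hi p a' : Submodule (ZMod p) (LV p)) : ℤ) + a' =
        finrank (ZMod p) (W ⊓ hi p a : Submodule (ZMod p) (LV p)) + a by
    obtain ⟨a, ha, e⟩ := hi'
    obtain ⟨a', ha', e'⟩ := hj
    rcases le_total a a' with hle | hle
    · have := key ha' hle
      omega
    · have := key ha hle
      omega
  intro a a' ha hle
  obtain ⟨k, rfl⟩ : ∃ k : ℕ, a' = a - k := ⟨(a - a').toNat, by omega⟩
  rw [finrank_sub h ha k]
  push_cast
  ring

/-- The index of a lattice. -/
theorem exists_idx {W : Submodule (ZMod p) (LV p)} (h : IsLat p n W) : ∃ j, HasIdx p W j := by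
  obtain ⟨-, a, -, ha, -⟩ := h
  exact ⟨a + finrank (ZMod p) (W ⊓ hi p a : Submodule (ZMod p) (LV p)), a, ha, by ring⟩

theorem hasIdx_map {W : Submodule (ZMod p) (LV p)} {j : ℤ} (h : HasIdx p W j) (c : ℤ) :
    HasIdx p (W.map (sh p c)) (j + c) := by
  obtain ⟨a, ha, e⟩ := h
  refine ⟨a + c, (map_lo a c).symm.le.trans (Submodule.map_mono ha), ?_⟩
  rw [← map_hi a c, ← Submodule.map_inf _ (sh_injective c),
    ← (Submodule.equivMapOfInjective _ (sh_injective c) _).finrank_eq]
  omega

theorem idx_lt {W W' : Submodule (ZMod p) (LV p)} (h' : IsLat p n W')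
    (hlt : W < W') {i j : ℤ} (hW : HasIdx p W i) (hW' : HasIdx p W' j) : i < j := by
  obtain ⟨a, ha, e⟩ := hW
  have ha' : lo p a ≤ W' := ha.trans hlt.le
  have hj : j = a + finrank (ZMod p) (W' ⊓ hi p a : Submodule (ZMod p) (LV p)) :=
    hasIdx_unique h' hW' ⟨a, ha', by ring⟩
  have := finite_inf_hi h' a
  have hlt' : W ⊓ hi p a < W' ⊓ hi p a := by
    refine (inf_le_inf_right _ hlt.le).lt_of_ne fun heq => hlt.not_ge ?_
    have h1 : W' = lo p a ⊔ (hi p a ⊓ W') := by
      rw [← sup_inf_assoc_of_le (hi p a) ha', lo_sup_hi, top_inf_eq]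
    rw [h1, inf_comm, ← heq]
    exact sup_le ha inf_le_left
  have := Submodule.finrank_lt_finrank_of_lt hlt'
  omega

end Vale.Agent.P067.Alld.Building
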