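import Vale.Agent.P067.Sparse.Chains
import Vale.Agent.P067.Sparse.Homotopy

/-!
P067, module II-b: shortening of order chains in a poset with a rank, and pushing chains along a map
that may collapse faces.
-/

set_option linter.unusedSectionVars false

namespace Vale.Agent.P067.Alld.Building

open Finset
open Vale.Agent.P067.Sparse

section Push

variable {X Y : Type} [DecidableEq X] [DecidableEq Y]

/-- Relabelling of the vertices; collapsed faces go to zero. -/
noncomputable def pushd (f : X → Y) : Ch X →ₗ[ZMod 2] Ch Y :=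
  Finsupp.linearCombination (ZMod 2) fun σ =>
    if (σ.image f).card = σ.card then Finsupp.single (σ.image f) 1 else 0

theorem pushd_single (f : X → Y) (σ : Finset X) :
    pushd f (Finsupp.single σ 1) =
      if (σ.image f).card = σ.card then Finsupp.single (σ.image f) 1 else 0 := by
  simp [pushd]

theorem bd_pushd (f : X → Y) (z : Ch X) : bd (pushd f z) = pushd f (bd z) := by
  suffices h : bd ∘ₗ pushd f = pushd f ∘ₗ bd from LinearMap.congr_fun h z
  refine Finsupp.lhom_ext' fun σ => LinearMap.ext_ring ?_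
  simp only [LinearMap.comp_apply, Finsupp.lsingle_apply, pushd_single, bd_single, map_sum]
  by_cases h : (σ.image f).card = σ.card
  · have hinj : Set.InjOn f σ := card_image_iff.1 h
    rw [if_pos h, bd_single, sum_image hinj]
    refine sum_congr rfl fun x hx => ?_
    have he : (σ.erase x).image f = (σ.image f).erase (f x) := by
      ext y
      simp only [mem_image, mem_erase]
      constructor
      · rintro ⟨a, ⟨hax, ha⟩, rfl⟩
        exact ⟨fun e => hax (hinj ha hx e), a, ha, rfl⟩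
      · rintro ⟨hy, a, ha, rfl⟩
        exact ⟨a, ⟨fun e => hy (e ▸ rfl), ha⟩, rfl⟩
    rw [if_pos, he]
    exact card_image_iff.2 (hinj.mono (coe_subset.2 (erase_subset _ _)))
  · rw [if_neg h, map_zero]
    have h' : ¬ Set.InjOn f σ := fun hh => h (card_image_iff.2 hh)
    simp only [Set.InjOn, not_forall] at h'
    obtain ⟨x, hx, x', hx', hf, hne⟩ := h'
    rw [← sum_subset (s₁ := {x, x'}) (by intro a; simp; rintro (rfl | rfl) <;> assumption)
      (fun a ha hna => ?_), sum_pair hne]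
    · have him : ∀ {x x' : X}, x' ∈ σ → f x = f x' → x ≠ x' →
          (σ.erase x).image f = σ.image f := by
        intro x x' hx' hf hne
        refine subset_antisymm (image_subset_image (erase_subset _ _)) fun y hy => ?_
        obtain ⟨a, ha, rfl⟩ := mem_image.1 hy
        rcases eq_or_ne a x with rfl | hax
        · exact mem_image.2 ⟨x', mem_erase.2 ⟨Ne.symm hne, hx'⟩, hf.symm⟩
        · exact mem_image_of_mem f (mem_erase.2 ⟨hax, ha⟩)
      rw [him hx' hf hne, him hx hf.symm (Ne.symm hne), card_erase_of_mem hx,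
        card_erase_of_mem hx', add_self_eq_zero']
    · simp only [mem_insert, mem_singleton, not_or] at hna
      refine if_neg fun hc => ?_
      exact hne (card_image_iff.1 hc (mem_coe.2 (mem_erase.2 ⟨Ne.symm hna.1, hx⟩))
        (mem_coe.2 (mem_erase.2 ⟨Ne.symm hna.2, hx'⟩)) hf)

theorem mem_support_pushd {f : X → Y} {z : Ch X} {σ : Finset Y} (h : σ ∈ (pushd f z).support) :
    ∃ τ ∈ z.support, σ = τ.image f ∧ (τ.image f).card = τ.card := by
  obtain ⟨τ, hτ, h⟩ := support_linearCombination _ _ h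
  by_cases hc : (τ.image f).card = τ.card
  · rw [if_pos hc] at h
    exact ⟨τ, hτ, mem_singleton.1 (Finsupp.support_single_subset h), hc⟩
  · simp [hc] at h

theorem on_map {P : Finset X → Prop} {Q : Finset Y → Prop} {L : Ch X →ₗ[ZMod 2] Ch Y}
    (h : ∀ σ, P σ → On Q (L (Finsupp.single σ 1))) {z : Ch X} (hz : On P z) : On Q (L z) := by
  rw [← Finsupp.sum_single z, Finsupp.sum, map_sum]
  refine On.sum fun σ hσ => ?_
  rw [show Finsupp.single σ (z σ) = z σ • Finsupp.single σ 1 by
    rw [Finsupp.smul_single, smul_eq_mul, mul_one], map_smul]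
  exact fun τ hτ => h σ (hz σ hσ) τ (Finsupp.support_smul hτ)

theorem cone_lk_single (v : X) (σ : Finset X) :
    cone v (lk v (Finsupp.single σ 1)) = if v ∈ σ then Finsupp.single σ 1 else 0 := by
  rw [lk_single]
  by_cases h : v ∈ σ
  · rw [if_pos h, if_pos h, cone_single, if_neg (by simp), insert_erase h]
  · rw [if_neg h, if_neg h, map_zero]

theorem cone_lk_pair {a b : X} (hab : a ≠ b) (σ : Finset X) :
    cone a (cone b (lk b (lk a (Finsupp.single σ 1)))) =
      if a ∈ σ ∧ b ∈ σ then Finsupp.single σ 1 else 0 := by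
  rw [lk_single]
  by_cases h : a ∈ σ
  · rw [if_pos h, cone_lk_single]
    by_cases hb : b ∈ σ
    · rw [if_pos (mem_erase.2 ⟨Ne.symm hab, hb⟩), if_pos ⟨h, hb⟩, cone_single,
        if_neg (by simp), insert_erase h]
    · rw [if_neg (fun hh => hb (mem_erase.1 hh).2), if_neg (fun hh => hb hh.2), map_zero]
  · rw [if_neg h, if_neg (fun hh => h hh.1), map_zero, map_zero, map_zero]

end Push

section Poset

variable {L : Type} [PartialOrder L] [DecidableEq L]

/-- Order chains as finite sets. -/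
def Tot (σ : Finset L) : Prop := ∀ a ∈ σ, ∀ b ∈ σ, a ≤ b ∨ b ≤ a

theorem Tot.mono {σ τ : Finset L} (h : Tot σ) (hs : τ ⊆ σ) : Tot τ :=
  fun a ha b hb => h a (hs ha) b (hs hb)

theorem Tot.insert {σ : Finset L} (h : Tot σ) {v : L} (hv : ∀ x ∈ σ, v ≤ x ∨ x ≤ v) :
    Tot (insert v σ) := by
  intro a ha b hb
  rcases mem_insert.1 ha with ha | ha <;> rcases mem_insert.1 hb with hb | hb
  · exact Or.inl (ha.trans hb.symm).le
  · exact ha ▸ hv b hb
  · exact hb ▸ (hv a ha).symm
  · exact h a ha b hb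

/-- A region with a point below which every element can be retracted has acyclic chain complex. -/
theorem fill_region (P : L → Prop) (S : L) (hS : P S)
    (hret : ∀ v, P v → ∃ v', P v' ∧ v' ≤ v ∧ v' ≤ S ∧ ∀ x, x ≤ v → x ≤ S → x ≤ v')
    (j : ℕ) (w : Ch L) (hw : On (fun τ => Tot τ ∧ (∀ x ∈ τ, P x) ∧ τ.card + 1 = j) w)
    (hbd : bd w = 0) :
    ∃ u : Ch L, On (fun τ => Tot τ ∧ (∀ x ∈ τ, P x) ∧ τ.card = j) u ∧ bd u = w := by
  classical
  induction h : ((w.support.biUnion id).filter fun x => ¬ x ≤ S).card using Nat.strong_induction_on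
    generalizing w with
  | _ N ih =>
    subst h
    by_cases hne : ((w.support.biUnion id).filter fun x => ¬ x ≤ S).Nonempty
    · obtain ⟨v, hmin⟩ := exists_minimal hne
      obtain ⟨hvm, hvS⟩ := mem_filter.1 hmin.prop
      obtain ⟨σ₀, hσ₀, hvσ₀⟩ := mem_biUnion.1 hvm
      obtain ⟨v', hPv', hv'v, hv'S, hmax⟩ := hret v ((hw σ₀ hσ₀).2.1 v hvσ₀)
      have hPv : P v := (hw σ₀ hσ₀).2.1 v hvσ₀
      set l := lk v w with hl
      have hbl : bd l = 0 := by rw [hl, bd_lk, hbd, map_zero]
      have hlon : On (fun τ => Tot τ ∧ (∀ x ∈ τ, P x ∧ (x ≤ v' ∨ v ≤ x)) ∧ v ∉ τ ∧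
          τ ⊆ w.support.biUnion id ∧ τ.card + 2 = j) l := by
        intro τ hτ
        obtain ⟨σ, hσ, hvσ, rfl⟩ := mem_support_lk hτ
        obtain ⟨hT, hP, hc⟩ := hw σ hσ
        refine ⟨hT.mono (erase_subset _ _), fun x hx => ?_, by simp,
          (erase_subset _ _).trans (subset_biUnion_of_mem id hσ), ?_⟩
        · obtain ⟨hxv, hxσ⟩ := mem_erase.1 hx
          refine ⟨hP x hxσ, ?_⟩
          rcases hT x hxσ v hvσ with hle | hle
          · refine Or.inl (hmax x hle (by_contra fun hxS => ?_))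
            have hmem : x ∈ (w.support.biUnion id).filter fun x => ¬ x ≤ S :=
              mem_filter.2 ⟨mem_biUnion.2 ⟨σ, hσ, hxσ⟩, hxS⟩
            exact hxv (le_antisymm hle (hmin.le_of_le hmem hle))
          · exact Or.inr hle
        · have := card_erase_add_one hvσ
          omega
      set w' := w + cone v l + cone v' l with hw'
      have hcomp : ∀ τ : Finset L, (∀ x ∈ τ, P x ∧ (x ≤ v' ∨ v ≤ x)) → ∀ x ∈ τ, v' ≤ x ∨ x ≤ v' :=
        fun τ hh x hx => (hh x hx).2.elim Or.inr fun e => Or.inl (hv'v.trans e)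
      have h1 : On (fun τ => (Tot τ ∧ (∀ x ∈ τ, P x) ∧ τ.card + 1 = j) ∧ v ∉ τ ∧
          τ ⊆ insert v' (w.support.biUnion id)) (w + cone v l) := by
        refine on_map (P := fun σ => σ ∈ w.support)
          (L := LinearMap.id + cone v ∘ₗ lk v) (fun σ hσ => ?_) (fun σ hσ => hσ)
        simp only [LinearMap.add_apply, LinearMap.id_apply, LinearMap.comp_apply, cone_lk_single]
        by_cases hv : v ∈ σ
        · rw [if_pos hv, add_self_eq_zero']
          exact On.zero
        · rw [if_neg hv, add_zero]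
          exact On.single ⟨hw σ hσ, hv,
            (subset_biUnion_of_mem id hσ).trans (subset_insert _ _)⟩
      have h2 : On (fun τ => (Tot τ ∧ (∀ x ∈ τ, P x) ∧ τ.card + 1 = j) ∧ v ∉ τ ∧
          τ ⊆ insert v' (w.support.biUnion id)) (cone v' l) := by
        intro τ hτ
        obtain ⟨τ', hτ', hn, rfl⟩ := mem_support_cone hτ
        obtain ⟨hT, hP, hv, hsub, hc⟩ := hlon τ' hτ'
        refine ⟨⟨hT.insert (hcomp τ' hP), ?_, by rw [card_insert_of_notMem hn]; omega⟩, ?_,
          insert_subset_insert _ hsub⟩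
        · intro x hx
          rcases mem_insert.1 hx with rfl | hx
          exacts [hPv', (hP x hx).1]
        · simp only [mem_insert, not_or]
          exact ⟨fun e => hvS (e ▸ hv'S), hv⟩
      have hw'on : On (fun τ => (Tot τ ∧ (∀ x ∈ τ, P x) ∧ τ.card + 1 = j) ∧ v ∉ τ ∧
          τ ⊆ insert v' (w.support.biUnion id)) w' := h1.add h2
      have hbd' : bd w' = 0 := by
        rw [hw', map_add, map_add, hbd, bd_cone_of_cycle v hbl, bd_cone_of_cycle v' hbl,
          zero_add, add_self_eq_zero']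
      have hlt : ((w'.support.biUnion id).filter fun x => ¬ x ≤ S).card <
          ((w.support.biUnion id).filter fun x => ¬ x ≤ S).card := by
        refine card_lt_card ((ssubset_iff_of_subset fun x hx => ?_).2
          ⟨v, hmin.prop, fun hx => ?_⟩)
        · obtain ⟨hx, hxS⟩ := mem_filter.1 hx
          obtain ⟨τ, hτ, hxτ⟩ := mem_biUnion.1 hx
          rcases mem_insert.1 ((hw'on τ hτ).2.2 hxτ) with rfl | hh
          · exact absurd hv'S hxS
          · exact mem_filter.2 ⟨hh, hxS⟩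
        · obtain ⟨τ, hτ, hxτ⟩ := mem_biUnion.1 (mem_filter.1 hx).1
          exact (hw'on τ hτ).2.1 hxτ
      obtain ⟨u', hu', hbu'⟩ := ih _ hlt w' (hw'on.mono fun τ hτ => hτ.1) hbd' rfl
      refine ⟨u' + cone v (cone v' l), hu'.add fun τ hτ => ?_, ?_⟩
      · obtain ⟨τ₁, hτ₁, hn, rfl⟩ := mem_support_cone hτ
        obtain ⟨τ', hτ', hn', rfl⟩ := mem_support_cone hτ₁
        obtain ⟨hT, hP, hv, hsub, hc⟩ := hlon τ' hτ'
        refine ⟨(hT.insert (hcomp τ' hP)).insert fun x hx => ?_, fun x hx => ?_, ?_⟩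
        · rcases mem_insert.1 hx with rfl | hx
          · exact Or.inr hv'v
          · exact (hP x hx).2.elim (fun e => Or.inr (e.trans hv'v)) Or.inl
        · rcases mem_insert.1 hx with rfl | hx
          · exact hPv
          rcases mem_insert.1 hx with rfl | hx
          exacts [hPv', (hP x hx).1]
        · rw [card_insert_of_notMem hn, card_insert_of_notMem hn']
          omega
      · have hc := bd_cone v (cone v' l)
        rw [bd_cone_of_cycle v' hbl] at hc
        have hc' : bd (cone v (cone v' l)) = cone v' l + cone v l := by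
          conv_rhs => rw [← hc]
          rw [add_assoc, add_self_eq_zero', add_zero]
        rw [map_add, hbu', hc', hw']
        calc w + cone v l + cone v' l + (cone v' l + cone v l)
            = w + ((cone v l + cone v l) + (cone v' l + cone v' l)) := by abel
          _ = w := by rw [add_self_eq_zero', add_self_eq_zero', add_zero, add_zero]
    · refine ⟨cone S w, fun τ hτ => ?_, bd_cone_of_cycle S hbd⟩
      obtain ⟨τ', hτ', hn, rfl⟩ := mem_support_cone hτ
      obtain ⟨hT, hP, hc⟩ := hw τ' hτ'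
      refine ⟨hT.insert fun x hx => Or.inr (by_contra fun hxS => hne
        ⟨x, mem_filter.2 ⟨mem_biUnion.2 ⟨τ', hτ', hx⟩, hxS⟩⟩), fun x hx => ?_,
        by rw [card_insert_of_notMem hn, hc]⟩
      rcases mem_insert.1 hx with rfl | hx
      exacts [hS, hP x hx]

variable (r : L → ℤ) (Sh : L → L → Prop)

/-- The pairs that are not short span less than `D`. -/
def Span (D : ℕ) (σ : Finset L) : Prop := ∀ a ∈ σ, ∀ b ∈ σ, ¬ Sh a b → r b - r a < D

/-- All pairs are short. -/
def Short (σ : Finset L) : Prop := ∀ a ∈ σ, ∀ b ∈ σ, Sh a b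

variable {r Sh}
variable (hr : StrictMono r) (hself : ∀ a b, b ≤ a → Sh a b)
  (hnest : ∀ a a' b' b, a ≤ a' → b' ≤ b → Sh a b → Sh a' b')
  (hmid : ∀ a b, a < b → ¬ Sh a b → ∃ S, (a < S ∧ S < b) ∧ ∀ v, a < v ∧ v < b →
    ∃ v', (a < v' ∧ v' < b) ∧ v' ≤ v ∧ v' ≤ S ∧ ∀ x, x ≤ v → x ≤ S → x ≤ v')

include hr hself hnest hmid

/-- One step of the shortening: remove the pairs of the largest span. -/
theorem shorten_step (i D : ℕ) (z y : Ch L) (hz : On (Short Sh) z)
    (hy : On (fun σ => Tot σ ∧ σ.card = i + 1 ∧ Span r Sh (D + 1) σ) y) (hby : bd y = z) :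
    ∃ y' : Ch L, On (fun σ => Tot σ ∧ σ.card = i + 1 ∧ Span r Sh D σ) y' ∧ bd y' = z := by
  classical
  set Vy := y.support.biUnion id
  set P := (Vy ×ˢ Vy).filter fun q => q.1 < q.2 ∧ ¬ Sh q.1 q.2 ∧ r q.2 - r q.1 = D
  have hle : ∀ {a b : L}, ¬ Sh a b → (a ≤ b ∨ b ≤ a) → a < b := fun {a b} hns hc =>
    lt_of_le_not_ge (hc.resolve_right fun e => hns (hself a b e)) fun e => hns (hself a b e)
  have hin : ∀ σ, Tot σ → Span r Sh (D + 1) σ → ∀ a ∈ σ, ∀ b ∈ σ, ¬ Sh a b →
      r b - r a = D → ∀ x ∈ σ, a ≤ x ∧ x ≤ b := by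
    intro σ hT hS a ha b hb hns hd x hx
    have hab : a ≤ b := (hle hns (hT a ha b hb)).le
    constructor
    · by_contra hax
      have hxa : x < a := lt_of_le_not_ge ((hT a ha x hx).resolve_left hax) hax
      have h2 := hS x hx b hb fun e => hns (hnest x a b b hxa.le le_rfl e)
      have := hr hxa
      push_cast at h2
      omega
    · by_contra hxb
      have hbx : b < x := lt_of_le_not_ge ((hT x hx b hb).resolve_left hxb) hxb
      have h2 := hS a ha x hx fun e => hns (hnest a a b x le_rfl hbx.le e)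
      have := hr hbx
      push_cast at h2
      omega
  have hw : ∀ q ∈ P, ∃ u : Ch L,
      On (fun τ => Tot τ ∧ (∀ x ∈ τ, q.1 < x ∧ x < q.2) ∧ τ.card = i) u ∧
        bd u = lk q.2 (lk q.1 y) := by
    intro q hq
    obtain ⟨-, hlt, hns, hd⟩ := mem_filter.1 hq
    obtain ⟨S, hS, hret⟩ := hmid q.1 q.2 hlt hns
    refine fill_region (fun x => q.1 < x ∧ x < q.2) S hS hret i _ (fun τ hτ => ?_) ?_
    · obtain ⟨τ₁, hτ₁, hb, rfl⟩ := mem_support_lk hτ
      obtain ⟨σ, hσ, ha, rfl⟩ := mem_support_lk hτ₁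
      obtain ⟨hT, hc, hS⟩ := hy σ hσ
      refine ⟨hT.mono ((erase_subset _ _).trans (erase_subset _ _)), fun x hx => ?_, ?_⟩
      · obtain ⟨hxb, hx⟩ := mem_erase.1 hx
        obtain ⟨hxa, hx⟩ := mem_erase.1 hx
        obtain ⟨h1, h2⟩ := hin σ hT hS q.1 ha q.2 (mem_erase.1 hb).2 hns hd x hx
        exact ⟨h1.lt_of_ne' hxa, h2.lt_of_ne hxb⟩
      · have h1 := card_erase_add_one hb
        have h2 := card_erase_add_one ha
        omega
    · rw [bd_lk, bd_lk, hby]
      refine Finsupp.support_eq_empty.1 (eq_empty_of_forall_notMem fun τ hτ => ?_)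
      obtain ⟨τ₁, hτ₁, hb, -⟩ := mem_support_lk hτ
      obtain ⟨σ, hσ, ha, rfl⟩ := mem_support_lk hτ₁
      exact hns (hz σ hσ q.1 ha q.2 (mem_erase.1 hb).2)
  choose! u hu using hw
  refine ⟨y + ∑ q ∈ P, bd (cone q.1 (cone q.2 (u q))), ?_, ?_⟩
  swap
  · rw [map_add, hby, map_sum, sum_eq_zero fun q _ => bd_bd _, add_zero]
  have hexp : ∀ q ∈ P, bd (cone q.1 (cone q.2 (u q))) =
      (cone q.2 (u q) + cone q.1 (u q)) + cone q.1 (cone q.2 (lk q.2 (lk q.1 y))) := by
    intro q hq
    have hflip : ∀ {x c d : Ch L}, x + c = d → x = d + c := fun {x c d} h => by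
      rw [← h, add_assoc, add_self_eq_zero', add_zero]
    have h2 : bd (cone q.2 (u q)) = u q + cone q.2 (lk q.2 (lk q.1 y)) := by
      rw [hflip (bd_cone q.2 (u q)), (hu q hq).2]
    rw [hflip (bd_cone q.1 (cone q.2 (u q))), h2, map_add, add_assoc]
  rw [sum_congr rfl hexp, sum_add_distrib, add_left_comm]
  refine On.add (On.sum fun q hq => ?_) ?_
  · obtain ⟨-, hlt, hns, hd⟩ := mem_filter.1 hq
    have hone : ∀ c : L, (c = q.1 ∨ c = q.2) →
        On (fun σ => Tot σ ∧ σ.card = i + 1 ∧ Span r Sh D σ) (cone c (u q)) := by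
      intro c hcab σ hσ
      obtain ⟨τ, hτ, hn, rfl⟩ := mem_support_cone hσ
      obtain ⟨hT, hP, hc⟩ := (hu q hq).1 τ hτ
      refine ⟨hT.insert fun x hx => ?_, by rw [card_insert_of_notMem hn, hc], ?_⟩
      · rcases hcab with rfl | rfl
        exacts [Or.inl (hP x hx).1.le, Or.inr (hP x hx).2.le]
      · intro x hx x' hx' hns'
        have hb : ∀ x ∈ insert c τ, x = c ∨ (r q.1 < r x ∧ r x < r q.2) := fun x hx =>
          (mem_insert.1 hx).imp id fun h => ⟨hr (hP x h).1, hr (hP x h).2⟩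
        have h0 : x ≠ x' := fun e => hns' (hself x x' e.ge)
        have hrr : r q.1 < r q.2 := hr hlt
        rcases hb x hx with e | ⟨_, _⟩ <;> rcases hb x' hx' with e' | ⟨_, _⟩
        · exact absurd (e.trans e'.symm) h0
        · rcases hcab with rfl | rfl <;> (rw [e]; omega)
        · rcases hcab with rfl | rfl <;> (rw [e']; omega)
        · omega
    exact (hone q.2 (Or.inr rfl)).add (hone q.1 (Or.inl rfl))
  · have hT : On (fun σ => Tot σ ∧ σ.card = i + 1 ∧ Span r Sh D σ)
        ((LinearMap.id + ∑ q ∈ P, cone q.1 ∘ₗ cone q.2 ∘ₗ lk q.2 ∘ₗ lk q.1 : Ch L →ₗ[ZMod 2] Ch L) y) := by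
      refine on_map (P := fun σ => σ ∈ y.support) (fun σ hσ => ?_) (fun σ hσ => hσ)
      obtain ⟨hT, hc, hS⟩ := hy σ hσ
      simp only [LinearMap.add_apply, LinearMap.id_apply, LinearMap.coe_sum, Finset.sum_apply,
        LinearMap.comp_apply]
      rw [sum_congr rfl fun q hq => cone_lk_pair (mem_filter.1 hq).2.1.ne σ]
      by_cases hex : ∃ q ∈ P, q.1 ∈ σ ∧ q.2 ∈ σ
      · obtain ⟨q, hq, ha, hb⟩ := hex
        obtain ⟨-, -, hns, hd⟩ := mem_filter.1 hq
        rw [sum_eq_single q (fun q' hq' hne => if_neg fun hh => ?_) (absurd hq),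
          if_pos ⟨ha, hb⟩, add_self_eq_zero']
        · exact On.zero
        · obtain ⟨-, -, hns', hd'⟩ := mem_filter.1 hq'
          exact hne (Prod.ext
            (le_antisymm (hin σ hT hS q'.1 hh.1 q'.2 hh.2 hns' hd' _ ha).1
              (hin σ hT hS q.1 ha q.2 hb hns hd _ hh.1).1)
            (le_antisymm (hin σ hT hS q.1 ha q.2 hb hns hd _ hh.2).2
              (hin σ hT hS q'.1 hh.1 q'.2 hh.2 hns' hd' _ hb).2))
      · rw [sum_eq_zero fun q hq => if_neg fun hh => hex ⟨q, hq, hh⟩, add_zero]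
        refine On.single ⟨hT, hc, fun a ha b hb hns => ?_⟩
        have h1 := hS a ha b hb hns
        refine lt_of_le_of_ne (by push_cast at h1; omega) fun e => hex ⟨(a, b), ?_, ha, hb⟩
        exact mem_filter.2 ⟨mem_product.2 ⟨mem_biUnion.2 ⟨σ, hσ, ha⟩,
          mem_biUnion.2 ⟨σ, hσ, hb⟩⟩, hle hns (hT a ha b hb), hns, e⟩
    simpa [LinearMap.add_apply, LinearMap.coe_sum, Finset.sum_apply] using hT

/-- An order chain whose boundary is short is homologous to a short one. -/
theorem shorten (i : ℕ) (z : Ch L) (hz : On (Short Sh) z) :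
    ∀ (D : ℕ) (y : Ch L), On (fun σ => Tot σ ∧ σ.card = i + 1 ∧ Span r Sh D σ) y → bd y = z →
      ∃ y' : Ch L, On (fun σ => Tot σ ∧ σ.card = i + 1 ∧ Short Sh σ) y' ∧ bd y' = z := by
  intro D
  induction D with
  | zero =>
    intro y hy hby
    refine ⟨y, hy.mono fun σ h => ⟨h.1, h.2.1, fun a ha b hb => by_contra fun hns => ?_⟩, hby⟩
    have h1 := h.2.2 a ha b hb hns
    rcases h.1 a ha b hb with e | e
    · have := hr.monotone e
      push_cast at h1
      omega
    · exact hns (hself a b e)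
  | succ D ih =>
    intro y hy hby
    obtain ⟨y', hy', hby'⟩ := shorten_step hr hself hnest hmid i D z y hz hy hby
    exact ih y' hy' hby'

/-- A short cycle lying below some point bounds a short chain. -/
theorem short_fill (i : ℕ) (z : Ch L) (hz : On (fun σ => Tot σ ∧ σ.card = i ∧ Short Sh σ) z)
    (M : L) (hM : ∀ σ ∈ z.support, ∀ x ∈ σ, x ≤ M) (hbd : bd z = 0) :
    ∃ y : Ch L, On (fun σ => Tot σ ∧ σ.card = i + 1 ∧ Short Sh σ) y ∧ bd y = z := by
  classical
  set D := (((cone M z).support.biUnion id) ×ˢ ((cone M z).support.biUnion id)).sup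
    fun q => (r q.2 - r q.1).toNat + 1
  refine shorten hr hself hnest hmid i z (hz.mono fun σ h => h.2.2) D (cone M z)
    (fun σ hσ => ?_) (bd_cone_of_cycle M hbd)
  refine ⟨?_, ?_, fun a ha b hb _ => ?_⟩
  · obtain ⟨τ, hτ, hn, rfl⟩ := mem_support_cone hσ
    exact (hz τ hτ).1.insert fun x hx => Or.inr (hM τ hτ x hx)
  · obtain ⟨τ, hτ, hn, rfl⟩ := mem_support_cone hσ
    rw [card_insert_of_notMem hn, (hz τ hτ).2.1]
  · have h : (r b - r a).toNat + 1 ≤ D :=
      Finset.le_sup (f := fun q : L × L => (r q.2 - r q.1).toNat + 1) (b := (a, b))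
        (mem_product.2 ⟨mem_biUnion.2 ⟨σ, hσ, ha⟩, mem_biUnion.2 ⟨σ, hσ, hb⟩⟩)
    omega

end Poset

end Vale.Agent.P067.Alld.Building
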