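import Vale.Agent.P067.Alld.Bld.Stmt
import Vale.Agent.P067.Alld.Building.Lat
import Vale.Agent.P067.Alld.Building.Shorten

/-!
P067, module II-b: the building is acyclic.

A cycle is coned from a large lattice, the long pairs of the resulting chain of nested lattices are
removed from the longest down, and the short chain is projected to homothety classes.
-/

set_option linter.unusedSectionVars false

namespace Vale.Agent.P067.Alld.Building

open Finset Module Bld
open Vale.Agent.P067.Sparse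

variable (p : ℕ) [Fact p.Prime] (n : ℕ)

/-- All lattices. -/
abbrev Lat : Type := {W : Submodule (ZMod p) (LV p) // IsLat p n W}

variable {p n}

/-- The index of a lattice. -/
noncomputable def rk (W : Lat p n) : ℤ := (exists_idx W.2).choose

theorem hasIdx_rk (W : Lat p n) : HasIdx p W.1 (rk W) := (exists_idx W.2).choose_spec

theorem rk_strictMono : StrictMono (rk : Lat p n → ℤ) :=
  fun W W' h => idx_lt W'.2 h (hasIdx_rk W) (hasIdx_rk W')

/-- `b ≤ t a`. -/
def ShP (a b : Lat p n) : Prop := b.1 ≤ a.1.map (sh p n)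

theorem emod_spec (hn : 0 < n) (j : ℤ) :
    ((j % (n : ℤ)).toNat < n) ∧ (((j % (n : ℤ)).toNat : ℤ) = j + (n : ℤ) * -(j / n)) := by
  have h1 := Int.emod_nonneg j (show (n : ℤ) ≠ 0 by omega)
  have h2 := Int.emod_lt_of_pos j (show 0 < (n : ℤ) by omega)
  have h3 := Int.mul_ediv_add_emod j n
  refine ⟨by omega, ?_⟩
  rw [Int.toNat_of_nonneg h1, mul_neg]
  linarith

/-- The representative of index in `[0, n)`. -/
noncomputable def rep (hn : 0 < n) (W : Lat p n) : BVert p n :=
  ⟨W.1.map (sh p ((n : ℤ) * -(rk W / n))), isLat_map W.2 _, (rk W % (n : ℤ)).toNat,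
    (emod_spec hn _).1, by rw [(emod_spec hn _).2]; exact hasIdx_map (hasIdx_rk W) _⟩

theorem rel_rep (hn : 0 < n) {W W' : Lat p n} (hle : W ≤ W') (hsh : ShP W W') :
    Bld.Rel (rep hn W) (rep hn W') := by
  have h1 : rk W ≤ rk W' := rk_strictMono.monotone hle
  have h2 : rk W' ≤ rk W + n := by
    have h := rk_strictMono.monotone (show W' ≤ (⟨_, isLat_map W.2 n⟩ : Lat p n) from hsh)
    rwa [hasIdx_unique (isLat_map W.2 n) (hasIdx_rk ⟨_, isLat_map W.2 n⟩)
      (hasIdx_map (hasIdx_rk W) n)] at h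
  have hpos : (0 : ℤ) < n := by omega
  have h3 : rk W / (n : ℤ) ≤ rk W' / n := Int.ediv_le_ediv hpos h1
  have h4 : rk W' / (n : ℤ) ≤ rk W / n + 1 := by
    have h := Int.ediv_le_ediv hpos h2
    rwa [Int.add_ediv_of_dvd_right dvd_rfl, Int.ediv_self hpos.ne'] at h
  rcases (show rk W' / (n : ℤ) = rk W / n ∨ rk W' / (n : ℤ) = rk W / n + 1 by omega) with e | e
  · left
    refine ⟨?_, ?_⟩
    · simp only [rep, e]
      exact Submodule.map_mono hle
    · simp only [rep, e, map_sh_sh]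
      refine (Submodule.map_mono hsh).trans ?_
      rw [map_sh_sh, add_comm]
  · right
    refine ⟨?_, ?_⟩
    · simp only [rep, e]
      refine (Submodule.map_mono hsh).trans ?_
      rw [map_sh_sh]
      refine le_of_eq ?_
      congr 2
      ring
    · simp only [rep, e, map_sh_sh]
      refine (Submodule.map_mono hle).trans (le_of_eq ?_)
      congr 2
      ring

theorem bsimp_rep (hn : 0 < n) [DecidableEq (BVert p n)] {σ : Finset (Lat p n)} (hT : Tot σ)
    (hS : Short ShP σ) : BSimp (σ.image (rep hn)) := by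
  intro A hA B hB
  obtain ⟨W, hW, rfl⟩ := mem_image.1 hA
  obtain ⟨W', hW', rfl⟩ := mem_image.1 hB
  rcases hT W hW W' hW' with h | h
  · exact rel_rep hn h (hS W hW W' hW')
  · exact (rel_rep hn h (hS W' hW' W hW)).symm

/-- The inclusion of the vertices of the building. -/
def incl (W : BVert p n) : Lat p n := ⟨W.1, W.2.1⟩

theorem rep_incl (hn : 0 < n) (W : BVert p n) : rep hn (incl W) = W := by
  obtain ⟨hL, j, hj, hidx⟩ := W.2
  have h : rk (incl W) = j := hasIdx_unique hL (hasIdx_rk (incl W)) hidx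
  refine Subtype.ext ?_
  simp only [rep, h, Int.ediv_eq_zero_of_lt (Int.natCast_nonneg j) (Int.ofNat_lt.2 hj), neg_zero,
    mul_zero, map_sh_zero]
  rfl

theorem mid (hn : 0 < n) (a b : Lat p n) (hab : a < b) (hns : ¬ ShP a b) :
    ∃ S : Lat p n, (a < S ∧ S < b) ∧ ∀ v, a < v ∧ v < b →
      ∃ v', (a < v' ∧ v' < b) ∧ v' ≤ v ∧ v' ≤ S ∧ ∀ x, x ≤ v → x ≤ S → x ≤ v' := by
  have hlt : ∀ v : Lat p n, a < v → a.1 < v.1 ⊓ a.1.map (sh p n) := fun v hv =>
    (le_inf hv.le (le_map_sh a.2)).lt_of_not_ge fun h => hv.not_ge (le_of_inf_map_le hn a.2 v.2 h)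
  have hSb : (⟨_, isLat_inf b.2 (isLat_map a.2 n)⟩ : Lat p n) < b :=
    lt_of_le_not_ge (show b.1 ⊓ a.1.map (sh p n) ≤ b.1 from inf_le_left)
      fun h => hns ((show b.1 ≤ b.1 ⊓ a.1.map (sh p n) from h).trans inf_le_right)
  refine ⟨_, ⟨hlt b hab, hSb⟩, fun v hv => ⟨⟨_, isLat_inf v.2 (isLat_inf b.2 (isLat_map a.2 n))⟩,
    ⟨?_, ?_⟩, ?_, ?_, fun x hx hx' => le_inf (show x.1 ≤ v.1 from hx) hx'⟩⟩
  · show a.1 < v.1 ⊓ (b.1 ⊓ a.1.map (sh p n))
    rw [← inf_assoc, inf_eq_left.2 (show v.1 ≤ b.1 from hv.2.le)]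
    exact hlt v hv.1
  · exact lt_of_le_of_lt (show v.1 ⊓ _ ≤ b.1 ⊓ a.1.map (sh p n) from inf_le_right) hSb
  · exact (inf_le_left : v.1 ⊓ _ ≤ v.1)
  · exact (inf_le_right : v.1 ⊓ _ ≤ b.1 ⊓ a.1.map (sh p n))

theorem exists_top (σs : Finset (Lat p n)) : ∃ M : Lat p n, ∀ x ∈ σs, x ≤ M := by
  classical
  have h : ∀ x : Lat p n, ∃ b, x.1 ≤ lo p b := fun x => by
    obtain ⟨-, a, b, -, hb⟩ := x.2
    exact ⟨b, hb⟩
  choose b hb using h
  obtain ⟨B, hB⟩ := (σs.image b).bddAbove
  exact ⟨⟨lo p B, isLat_lo B⟩, fun x hx =>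
    (hb x).trans (lo_mono (hB (mem_coe.2 (mem_image_of_mem b hx))))⟩

/-- II-b: the building is acyclic. -/
theorem building_acyclic : BuildingStmt := by
  classical
  intro n hn p _ inst i z hz hbd
  have hn0 : 0 < n := hn
  have hinj : Function.Injective (incl : BVert p n → Lat p n) :=
    fun a b h => Subtype.ext (show a.1 = b.1 from (Subtype.ext_iff.1 h :))
  have hz' : On (fun σ => Tot σ ∧ σ.card = i ∧ Short ShP σ) (push incl z) := by
    intro σ hσ
    obtain ⟨τ, hτ, rfl⟩ := mem_support_push hσ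
    obtain ⟨hB, hc⟩ := hz τ hτ
    refine ⟨fun x hx y hy => ?_, by rw [card_image_of_injective _ hinj, hc], fun x hx y hy => ?_⟩
    all_goals
      obtain ⟨W, hW, rfl⟩ := mem_image.1 hx
      obtain ⟨W', hW', rfl⟩ := mem_image.1 hy
    · exact (hB W hW W' hW').imp (fun h => h.1) fun h => h.1
    · rcases hB W hW W' hW' with h | h
      · exact h.2
      · exact h.1.trans (le_map_sh W.2.1)
  obtain ⟨M, hM⟩ := exists_top ((push incl z).support.biUnion id)
  obtain ⟨y, hy, hby⟩ := short_fill (r := rk) (Sh := ShP) rk_strictMono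
    (fun a b h => (show b.1 ≤ a.1 from h).trans (le_map_sh a.2))
    (fun a a' b' b ha hb h => ((show b'.1 ≤ b.1 from hb).trans h).trans (Submodule.map_mono ha))
    (mid hn0) i (push incl z) hz' M (fun σ hσ x hx => hM x (mem_biUnion.2 ⟨σ, hσ, hx⟩))
    (by rw [bd_push hinj, hbd, map_zero])
  refine ⟨pushd (rep hn0) y, fun σ hσ => ?_, ?_⟩
  · obtain ⟨τ, hτ, rfl, hc⟩ := mem_support_pushd hσ
    exact ⟨bsimp_rep hn0 (hy τ hτ).1 (hy τ hτ).2.2, hc.trans (hy τ hτ).2.1⟩
  · rw [bd_pushd, hby]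
    refine eq_of_on (L := pushd (rep hn0) ∘ₗ push incl) (L' := LinearMap.id) (P := fun _ => True)
      (fun σ _ => ?_) (fun σ _ => trivial)
    have him : (σ.image incl).image (rep hn0) = σ := by
      rw [image_image]
      exact (image_congr fun x _ => rep_incl hn0 x).trans image_id
    simp only [LinearMap.comp_apply, LinearMap.id_apply, push_single, pushd_single, him]
    rw [if_pos (card_image_of_injective _ hinj).symm]

end Vale.Agent.P067.Alld.Building
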